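import Vale.Agent.KK.PP.Defs

/-!
# Product measure on the subsets of a finite type: mass, positivity, law of a union
-/

namespace Vale.Agent.Lib.P064

open Vale.Agent.KK.PP Finset

variable {X : Type*} [Fintype X] [DecidableEq X]

theorem bern_nonneg (p : ℝ) (hp0 : 0 ≤ p) (hp1 : p ≤ 1) (W : Finset X) : 0 ≤ bern p W := by
  unfold bern
  have h1 : 0 ≤ 1 - p := by linarith
  positivity

theorem sum_bern (p : ℝ) : ∑ W : Finset X, bern p W = 1 := by
  have h := Finset.sum_pow_mul_eq_add_pow p (1 - p) (Finset.univ : Finset X)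
  rw [Finset.powerset_univ] at h
  simp only [bern, ← Finset.card_univ]
  rw [h]
  simp

omit [Fintype X] in
/-- The weight of `W` as a product over the elements of the ground set `s`. -/
noncomputable def h76_bernProd (s : Finset X) (a : ℝ) (W : Finset X) : ℝ :=
  ∏ x ∈ s, if x ∈ W then a else 1 - a

omit [Fintype X] in
theorem h76_bernProd_insert_of_subset {s : Finset X} {x : X} (hx : x ∉ s) (a : ℝ) {W : Finset X}
    (hW : W ⊆ s) : h76_bernProd (insert x s) a W = (1 - a) * h76_bernProd s a W := by
  unfold h76_bernProd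
  rw [Finset.prod_insert hx, if_neg (fun h => hx (hW h))]

omit [Fintype X] in
theorem h76_bernProd_insert_insert {s : Finset X} {x : X} (hx : x ∉ s) (a : ℝ) (W : Finset X) :
    h76_bernProd (insert x s) a (insert x W) = a * h76_bernProd s a W := by
  unfold h76_bernProd
  rw [Finset.prod_insert hx, if_pos (Finset.mem_insert_self x W)]
  congr 1
  refine Finset.prod_congr rfl fun y hy => ?_
  have hyx : y ≠ x := fun h => hx (h ▸ hy)
  simp [Finset.mem_insert, hyx]

omit [Fintype X] in
theorem h76_bernProd_union (s : Finset X) (a b : ℝ) : ∀ f : Finset X → ℝ,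
    ∑ W₁ ∈ s.powerset, ∑ W₂ ∈ s.powerset, h76_bernProd s a W₁ * h76_bernProd s b W₂ * f (W₁ ∪ W₂) =
      ∑ W ∈ s.powerset, h76_bernProd s (a + b - a * b) W * f W := by
  induction s using Finset.induction_on with
  | empty =>
    intro f
    simp [h76_bernProd]
  | insert x s hx ih =>
    intro f
    have hL : ∑ W₁ ∈ (insert x s).powerset, ∑ W₂ ∈ (insert x s).powerset,
        h76_bernProd (insert x s) a W₁ * h76_bernProd (insert x s) b W₂ * f (W₁ ∪ W₂) =
        ∑ W₁ ∈ s.powerset, ∑ W₂ ∈ s.powerset, h76_bernProd s a W₁ * h76_bernProd s b W₂ *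
          ((1 - a) * (1 - b) * f (W₁ ∪ W₂) + (a + b - a * b) * f (insert x (W₁ ∪ W₂))) := by
      simp only [Finset.sum_powerset_insert hx, ← Finset.sum_add_distrib]
      refine Finset.sum_congr rfl fun W₁ h₁ => Finset.sum_congr rfl fun W₂ h₂ => ?_
      rw [Finset.mem_powerset] at h₁ h₂
      rw [h76_bernProd_insert_of_subset hx a h₁, h76_bernProd_insert_of_subset hx b h₂,
        h76_bernProd_insert_insert hx a W₁, h76_bernProd_insert_insert hx b W₂,
        Finset.union_insert, Finset.insert_union, Finset.insert_union, Finset.union_insert,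
        Finset.insert_idem]
      ring
    have hR : ∑ W ∈ (insert x s).powerset, h76_bernProd (insert x s) (a + b - a * b) W * f W =
        ∑ W ∈ s.powerset, h76_bernProd s (a + b - a * b) W *
          ((1 - a) * (1 - b) * f W + (a + b - a * b) * f (insert x W)) := by
      rw [Finset.sum_powerset_insert hx, ← Finset.sum_add_distrib]
      refine Finset.sum_congr rfl fun W h => ?_
      rw [Finset.mem_powerset] at h
      rw [h76_bernProd_insert_of_subset hx _ h, h76_bernProd_insert_insert hx _ W]
      ring
    rw [hL, hR]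
    exact ih (fun W => (1 - a) * (1 - b) * f W + (a + b - a * b) * f (insert x W))

theorem h76_bernProd_univ (a : ℝ) (W : Finset X) : h76_bernProd Finset.univ a W = bern a W := by
  unfold h76_bernProd bern
  rw [Finset.prod_ite, Finset.prod_const, Finset.prod_const]
  have h1 : (Finset.univ.filter (fun x => x ∈ W)) = W := by
    ext x; simp
  have h2 : (Finset.univ.filter (fun x => x ∉ W)) = Finset.univ \ W := by
    ext x; simp
  rw [h1, h2, Finset.card_sdiff_of_subset (Finset.subset_univ W), Finset.card_univ]

theorem bern_union (a b : ℝ) (f : Finset X → ℝ) :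
    ∑ W₁ : Finset X, ∑ W₂ : Finset X, bern a W₁ * bern b W₂ * f (W₁ ∪ W₂) =
      ∑ W : Finset X, bern (a + b - a * b) W * f W := by
  have h := h76_bernProd_union (Finset.univ : Finset X) a b f
  simp only [Finset.powerset_univ, h76_bernProd_univ] at h
  exact h

end Vale.Agent.Lib.P064
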