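import Vale.Agent.KK.PP.Defs

/-!
# Subsets of `Slot n` and graphs on `Fin n`
-/

namespace Vale.Agent.Lib.P064

open Vale.Agent.KK.PP Finset

theorem h76_graphOf_adj {n : ℕ} (W : Finset (Slot n)) (a b : Fin n) :
    (graphOf W).Adj a b ↔ ∃ e ∈ W, (e : Sym2 (Fin n)) = s(a, b) := by
  unfold graphOf
  rw [SimpleGraph.fromEdgeSet_adj]
  constructor
  · rintro ⟨⟨e, he, heq⟩, -⟩
    exact ⟨e, he, heq⟩
  · rintro ⟨e, he, heq⟩
    refine ⟨⟨e, he, heq⟩, ?_⟩
    intro hab
    apply e.2
    rw [heq, hab]
    exact Sym2.mk_isDiag_iff.2 rfl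

open SimpleGraph in
theorem hits_copyFamily_iff {n : ℕ} (H : SimpleGraph (Fin n)) (W : Finset (Slot n)) :
    Hits (copyFamily H) W ↔ H ⊑ graphOf W := by
  classical
  constructor
  · rintro ⟨S, hS, hSW⟩
    unfold copyFamily at hS
    rw [Finset.mem_image] at hS
    obtain ⟨σ, -, rfl⟩ := hS
    refine ⟨⟨⟨σ, ?_⟩, σ.injective⟩⟩
    intro u v huv
    have hne : σ u ≠ σ v := fun h => huv.ne (σ.injective h)
    have hnd : ¬ (s(σ u, σ v)).IsDiag := fun h => hne (Sym2.mk_isDiag_iff.1 h)
    have hmem : (⟨s(σ u, σ v), hnd⟩ : Slot n) ∈ copyEdges H σ := by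
      unfold copyEdges
      rw [Finset.mem_filter]
      refine ⟨Finset.mem_univ _, ?_⟩
      rw [SimpleGraph.mem_edgeSet, SimpleGraph.map_adj]
      exact ⟨u, v, huv, rfl, rfl⟩
    rw [h76_graphOf_adj]
    exact ⟨_, hSW hmem, rfl⟩
  · rintro ⟨c⟩
    have hbij : Function.Bijective c := Finite.injective_iff_bijective.1 c.injective
    refine ⟨copyEdges H (Equiv.ofBijective c hbij), ?_, ?_⟩
    · unfold copyFamily
      exact Finset.mem_image_of_mem _ (Finset.mem_univ _)
    · intro e he
      unfold copyEdges at he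
      rw [Finset.mem_filter] at he
      obtain ⟨-, he⟩ := he
      obtain ⟨e, hne⟩ := e
      induction e using Sym2.ind with
      | _ a b =>
        rw [SimpleGraph.mem_edgeSet, SimpleGraph.map_adj] at he
        obtain ⟨u, v, huv, hu, hv⟩ := he
        have hadj : (graphOf W).Adj (c u) (c v) := c.toHom.map_rel huv
        rw [h76_graphOf_adj] at hadj
        obtain ⟨e', he', heq⟩ := hadj
        have hu' : c u = a := hu
        have hv' : c v = b := hv
        have hee : e' = ⟨s(a, b), hne⟩ := Subtype.ext (by rw [heq, hu', hv'])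
        rw [← hee]
        exact he'

open Classical in
/-- Subsets of the set of potential edges correspond to graphs. -/
noncomputable def h76_graphEquiv (n : ℕ) : Finset (Slot n) ≃ SimpleGraph (Fin n) where
  toFun := graphOf
  invFun G := Finset.univ.filter (fun e : Slot n => (e : Sym2 (Fin n)) ∈ G.edgeSet)
  left_inv W := by
    ext e
    simp only [Finset.mem_filter, Finset.mem_univ, true_and]
    obtain ⟨e, hne⟩ := e
    induction e using Sym2.ind with
    | _ a b =>
      rw [SimpleGraph.mem_edgeSet, h76_graphOf_adj]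
      constructor
      · rintro ⟨e', he', heq⟩
        have hee : e' = ⟨s(a, b), hne⟩ := Subtype.ext heq
        rw [← hee]
        exact he'
      · intro h
        exact ⟨_, h, rfl⟩
  right_inv G := by
    ext a b
    rw [h76_graphOf_adj]
    constructor
    · rintro ⟨e, he, heq⟩
      rw [Finset.mem_filter] at he
      have h2 := he.2
      rw [heq, SimpleGraph.mem_edgeSet] at h2
      exact h2
    · intro h
      have hnd : ¬ (s(a, b)).IsDiag := fun hd => h.ne (Sym2.mk_isDiag_iff.1 hd)
      refine ⟨⟨s(a, b), hnd⟩, ?_, rfl⟩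
      rw [Finset.mem_filter]
      exact ⟨Finset.mem_univ _, (SimpleGraph.mem_edgeSet G).2 h⟩

theorem h76_ncard_edgeSet_graphOf {n : ℕ} (W : Finset (Slot n)) :
    (graphOf W).edgeSet.ncard = W.card := by
  have h : (graphOf W).edgeSet =
      (fun e : Slot n => (e : Sym2 (Fin n))) '' (W : Set (Slot n)) := by
    unfold graphOf
    rw [SimpleGraph.edgeSet_fromEdgeSet]
    ext e
    constructor
    · exact fun h => h.1
    · rintro ⟨e', he', rfl⟩
      exact ⟨⟨e', he', rfl⟩, e'.2⟩
  rw [h, Set.ncard_image_of_injective _ Subtype.val_injective, Set.ncard_coe_finset]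

theorem h76_card_slot (n : ℕ) : Fintype.card (Slot n) = n.choose 2 := by
  have h := Sym2.card_subtype_not_diag (α := Fin n)
  rw [Fintype.card_fin] at h
  rw [← h]

theorem sum_graphs_eq {n : ℕ} (p : ℝ) (f : SimpleGraph (Fin n) → ℝ) :
    ∑ G : SimpleGraph (Fin n),
        p ^ G.edgeSet.ncard * (1 - p) ^ (n.choose 2 - G.edgeSet.ncard) * f G =
      ∑ W : Finset (Slot n), bern p W * f (graphOf W) := by
  symm
  refine Fintype.sum_equiv (h76_graphEquiv n) _ _ fun W => ?_
  show bern p W * f (graphOf W) = p ^ (graphOf W).edgeSet.ncard *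
    (1 - p) ^ (n.choose 2 - (graphOf W).edgeSet.ncard) * f (graphOf W)
  rw [h76_ncard_edgeSet_graphOf]
  unfold bern
  rw [h76_card_slot]

end Vale.Agent.Lib.P064
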